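import Vale.Agent.P126.Tilt.Step
import Vale.Agent.P126.Power.Bounded

/-!
P126: separated points are decoded from `J` symbols of a net and a sample.
-/

open Finset Real
open scoped RealInnerProductSpace Pointwise Classical

namespace Vale.Agent.P126.Tilt

open Vale.Agent.P126.Power

variable {E : Type*} [NormedAddCommGroup E] [InnerProductSpace ℝ E]

/-- The fixed data: precision `η`, moves of length `g`, sampling error `w`, separation `d`. -/
structure Data (L : Set E) (P Q : Finset E) (η g w d : ℝ) (J k : ℕ) : Prop where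
  body : IsBody L
  sub : ↑P ⊆ L
  netSub : ↑Q ⊆ polar L
  net : ∀ y ∈ polar L, ∃ p ∈ Q, ∀ x ∈ P, |⟪x, y - p⟫| ≤ η
  sep : ∀ x ∈ P, ∀ x' ∈ P, x ≠ x' → ∃ y ∈ polar L, d < ⟪x - x', y⟫
  eta_pos : 0 < η
  g_pos : 0 < g
  w_pos : 0 < w
  margins : 2 * (w + J * g) + 2 * η ≤ d
  sample : 2 * (Q.card : ℝ) * exp (-(k * w ^ 2 / 8)) ≤ 1 / 4

variable {L : Set E} {P Q : Finset E} {η g w d : ℝ} {J k : ℕ}

/-- Points with witnesses of small relative entropy are few. -/
theorem Data.end_le (hs : Data L P Q η g w d J k) {μ : P → ℝ} (hμ : Pos μ) {S : Finset E}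
    (hS : S ⊆ P) {B : ℝ} (hB : 0 ≤ B)
    (hwit : ∀ x ∈ S, ∃ ν ∈ stdSimplex ℝ P, kl ν μ ≤ B ∧
      ∀ y ∈ polar L, |⟪x - bary P ν, y⟫| ≤ J * g) :
    (S.card : ℝ) ≤ 4 / 3 * exp (2 * (k * B + 1)) := by
  choose! ρ hρ hρk hρx using hwit
  let D : E → Finset (Fin k → P) := fun x => univ.filter fun t =>
    ∀ g ∈ Q, |∑ i, (⟪(t i : E), g⟫ - ⟪bary P (ρ x), g⟫)| ≤ k * w
  have hbound : ∀ y ∈ polar L, ∀ a ∈ P, |⟪a, y⟫| ≤ 1 := fun y hy a ha =>
    hs.body.abs_inner_le (hs.sub ha) hy
  set c : ℝ := 2 * ((k : ℝ) * B + 1) with hc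
  have hc0 : 0 ≤ c := by positivity
  have hmass : ∀ x ∈ S, 3 / 4 * exp (-c) ≤ ∑ t ∈ D x, wt μ t := by
    intro x hx
    have hst := hρ x hx
    refine change_measure (φ := fun a => log (ρ x a) - log (μ a)) hst hμ.1 (fun a => ?_)
      (mul_le_mul_of_nonneg_left (hρk x hx) (Nat.cast_nonneg k)) rfl hc0 (D x) ?_
    · rcases (hst.1 a).eq_or_lt with h | h
      · rw [← h, zero_mul]; exact (hμ.2 a).le
      · rw [neg_sub, exp_sub, exp_log h, exp_log (hμ.2 a), mul_div_cancel₀ _ h.ne']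
    have h1 := Finset.sum_sdiff (f := fun t => wt (ρ x) t) (Finset.subset_univ (D x))
    rw [sum_wt k hst] at h1
    suffices h2 : ∑ t ∈ univ \ D x, wt (ρ x) t ≤ 1 / 4 by linarith
    let u : E → P → ℝ := fun g a => ⟪(a : E), g⟫ - ⟪bary P (ρ x), g⟫
    have hu : ∀ g ∈ Q, ∀ a, |u g a| ≤ 2 := fun g hg a => (abs_sub _ _).trans (by
      linarith [hbound g (hs.netSub hg) a a.2,
        abs_inner_bary_le hst (fun a ha => hbound g (hs.netSub hg) a ha)])
    have hmean : ∀ g, ∑ a, ρ x a * u g a = 0 := fun g => by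
      simp only [u, mul_sub, Finset.sum_sub_distrib, ← Finset.sum_mul, hst.2, one_mul,
        ← inner_bary, sub_self]
    let bad : E → Finset (Fin k → P) := fun g =>
      univ.filter (fun t : Fin k → P => k * w < ∑ i, u g (t i)) ∪
      univ.filter (fun t : Fin k → P => k * w < ∑ i, -u g (t i))
    have hsub : univ \ D x ⊆ Q.biUnion bad := by
      intro t ht
      simp only [D, Finset.mem_sdiff, Finset.mem_univ, true_and, Finset.mem_filter, not_forall,
        not_le, exists_prop] at ht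
      obtain ⟨g, hg, hgt⟩ := ht
      refine Finset.mem_biUnion.2 ⟨g, hg, ?_⟩
      simp only [bad, Finset.mem_union, Finset.mem_filter, Finset.mem_univ, true_and, u,
        Finset.sum_neg_distrib]
      exact lt_abs.1 hgt
    refine (Finset.sum_le_sum_of_subset_of_nonneg hsub fun t _ _ => wt_nonneg hst t).trans ?_
    refine (sum_biUnion_le Q bad (fun t => wt_nonneg hst t)).trans ?_
    refine le_trans (Finset.sum_le_sum (g := fun _ => exp (-(k * w ^ 2 / 8)) + exp (-(k * w ^ 2 / 8))) fun g hg => ?_) (le_trans (le_of_eq ?_) hs.sample)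
    · refine le_trans ?_ (add_le_add (tail_le k hst (hu g hg) (hmean g) hs.w_pos.le)
        (tail_le k hst (u := fun a => -u g a) (fun a => by rw [abs_neg]; exact hu g hg a)
          (by simp only [mul_neg, Finset.sum_neg_distrib, hmean g, neg_zero]) hs.w_pos.le))
      simp only [bad]
      rw [← Finset.sum_union_inter]
      exact le_add_of_nonneg_right (Finset.sum_nonneg fun t _ => wt_nonneg hst t)
    · rw [Finset.sum_const, nsmul_eq_mul]; ring
  have hdisj : (S : Set E).PairwiseDisjoint D := by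
    intro x hx x' hx' hne
    rw [Function.onFun, Finset.disjoint_left]
    intro t ht ht'
    obtain ⟨y, hy, hxy⟩ := hs.sep x (hS hx) x' (hS hx') hne
    obtain ⟨g₁, hg, hgy⟩ := hs.net y hy
    have a1 := abs_le.1 (hgy x (hS hx))
    have a2 := abs_le.1 (hgy x' (hS hx'))
    have b1 := abs_le.1 (hρx x hx g₁ (hs.netSub hg))
    have b2 := abs_le.1 (hρx x' hx' g₁ (hs.netSub hg))
    have c1 := abs_le.1 ((Finset.mem_filter.1 ht).2 g₁ hg)
    have c2 := abs_le.1 ((Finset.mem_filter.1 ht').2 g₁ hg)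
    have hk : 0 < (k : ℝ) := by
      by_contra hk
      have hk0 : (k : ℝ) = 0 := le_antisymm (not_lt.1 hk) (Nat.cast_nonneg k)
      have := hs.sample
      rw [hk0, zero_mul, zero_div, neg_zero, exp_zero, mul_one] at this
      have : (1 : ℝ) ≤ Q.card := by exact_mod_cast Finset.card_pos.2 ⟨g₁, hg⟩
      linarith
    rw [Finset.sum_sub_distrib, Finset.sum_const, Finset.card_univ, Fintype.card_fin,
      nsmul_eq_mul] at c1 c2
    rw [inner_sub_left] at hxy b1 b2
    rw [inner_sub_right] at a1 a2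
    have key : (k : ℝ) * (⟪bary P (ρ x), g₁⟫ - ⟪bary P (ρ x'), g₁⟫) ≤ k * (2 * w) := by linarith
    have := le_of_mul_le_mul_left key hk
    linarith [hs.margins]
  have htot : ∑ x ∈ S, 3 / 4 * exp (-c) ≤ 1 := by
    refine (Finset.sum_le_sum hmass).trans ?_
    rw [← Finset.sum_biUnion hdisj, ← sum_wt k hμ.1]
    exact Finset.sum_le_univ_sum_of_nonneg fun t => wt_nonneg hμ.1 t
  rw [Finset.sum_const, nsmul_eq_mul, exp_neg, mul_left_comm, ← mul_assoc, mul_inv_le_iff₀ (exp_pos _),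
    one_mul] at htot
  linarith

/-- `j` more steps cost `j` symbols. -/
theorem Data.bound [FiniteDimensional ℝ E] (hs : Data L P Q η g w d J k) :
    ∀ (j l : ℕ) (S : Finset E) (μ : P → ℝ) (B : ℝ), Pos μ → S ⊆ P → 0 < B → l + j = J →
      (∀ x ∈ S, ∃ ν ∈ stdSimplex ℝ P, kl ν μ ≤ B ∧ ∀ y ∈ polar L, |⟪x - bary P ν, y⟫| ≤ l * g) →
      (S.card : ℝ) ≤ (Q.card : ℝ) ^ j *
        (4 / 3 * exp (2 * (k * (B * (2 * η / g) ^ j) + 1))) := by
  intro j
  induction j with
  | zero =>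
    intro l S μ B hμ hS hB hl hwit
    simp only [add_zero] at hl
    subst hl
    simpa using hs.end_le hμ hS hB.le hwit
  | succ j ih =>
    intro l S μ B hμ hS hB hl hwit
    have hstep : ∀ x ∈ S, ∃ p ∈ Q, ∃ ν ∈ stdSimplex ℝ P,
        kl ν (tilt μ ((B / g) • p)) ≤ 2 * η / g * B ∧
          ∀ y ∈ polar L, |⟪x - bary P ν, y⟫| ≤ l * g + g := fun x hx => by
      obtain ⟨ν, hν, hkl, hxν⟩ := hwit x hx
      exact tilt_step hs.body hs.net hs.g_pos hB hμ hν hkl hxν
    choose! code hcode hrest using hstep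
    rw [Finset.card_eq_sum_card_fiberwise hcode, Nat.cast_sum]
    have hδ : 0 < 2 * η / g := div_pos (mul_pos two_pos hs.eta_pos) hs.g_pos
    refine (Finset.sum_le_sum fun p _ => ih (l + 1) (S.filter fun x => code x = p)
      (tilt μ ((B / g) • p)) (2 * η / g * B) (pos_tilt hμ _) ((Finset.filter_subset _ _).trans hS)
      (mul_pos hδ hB) (by omega) fun x hx => ?_).trans (le_of_eq ?_)
    · obtain ⟨hxS, hxp⟩ := Finset.mem_filter.1 hx
      obtain ⟨ν, hν, h1, h2⟩ := hrest x hxS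
      refine ⟨ν, hν, hxp ▸ h1, fun y hy => (h2 y hy).trans (le_of_eq ?_)⟩
      push_cast; ring
    · rw [Finset.sum_const, nsmul_eq_mul, pow_succ', pow_succ']
      ring

/-- Separated subsets of `L` are controlled linearly by a fine enough net of the polar. -/
theorem bounded_tilt [FiniteDimensional ℝ E] (hL : IsBody L) (hP : ↑P ⊆ L) (hQ : ↑Q ⊆ polar L)
    (hnet : ∀ y ∈ polar L, ∃ p ∈ Q, ∀ x ∈ P, |⟪x, y - p⟫| ≤ η)
    (hsep : ∀ x ∈ P, ∀ x' ∈ P, x ≠ x' → ∃ y ∈ polar L, d < ⟪x - x', y⟫)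
    (hη : 0 < η) (hd : 0 < d) (hd1 : d ≤ 1) (hηd : 16 * η ≤ d) (hJ : 1 ≤ J)
    (hpow : 24000 * log (Q.card : ℝ) * (16 * η * J / d) ^ J ≤ d ^ 2) :
    log (P.card : ℝ) ≤ 10 * J * log (Q.card : ℝ) := by
  have hh0 : 0 ≤ log (Q.card : ℝ) := log_natCast_nonneg _
  rcases le_or_gt P.card 1 with hP1 | hP1
  · have h : log (P.card : ℝ) ≤ 0 := log_nonpos (Nat.cast_nonneg _) (by exact_mod_cast hP1)
    linarith [mul_nonneg (mul_nonneg (show (0 : ℝ) ≤ 10 by norm_num) (Nat.cast_nonneg J)) hh0]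
  have hQ2 : 2 ≤ Q.card := by
    by_contra hlt
    obtain ⟨x, hx, x', hx', hne⟩ := Finset.one_lt_card.1 hP1
    obtain ⟨y, hy, hyd⟩ := hsep x hx x' hx' hne
    obtain ⟨p, hp, hp'⟩ := hnet y hy
    obtain ⟨q, hq, hq'⟩ := hnet (-y) (hL.isBody_polar.2.2.2 y hy)
    obtain rfl : q = p := Finset.card_le_one.1 (by omega) q hq p hp
    have a := abs_le.1 (hp' x hx)
    have b := abs_le.1 (hq' x hx)
    have a' := abs_le.1 (hp' x' hx')
    have b' := abs_le.1 (hq' x' hx')
    simp only [inner_sub_right, inner_neg_right] at a b a' b'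
    rw [inner_sub_left] at hyd
    linarith
  have hq2 : (2 : ℝ) ≤ Q.card := by exact_mod_cast hQ2
  have hh2 : log 2 ≤ log (Q.card : ℝ) := log_le_log two_pos hq2
  have hl2 : (0.69 : ℝ) < log 2 := by linarith [log_two_gt_d9]
  have hJ1 : (1 : ℝ) ≤ J := by exact_mod_cast hJ
  set k : ℕ := ⌈512 * log (8 * (Q.card : ℝ)) / d ^ 2⌉₊ with hk
  have h8 : log (8 * (Q.card : ℝ)) = 3 * log 2 + log (Q.card : ℝ) := by
    rw [log_mul (by norm_num) (by positivity), show (8 : ℝ) = 2 ^ 3 by norm_num, log_pow]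
    norm_num
  have hk3 : (k : ℝ) ≤ 3000 * log (Q.card : ℝ) / d ^ 2 := by
    have h1 := Nat.ceil_lt_add_one (show 0 ≤ 512 * log (8 * (Q.card : ℝ)) / d ^ 2 by
      have : 0 ≤ log (8 * (Q.card : ℝ)) := log_nonneg (by linarith)
      positivity)
    rw [← hk] at h1
    refine h1.le.trans ?_
    rw [div_add_one (by positivity), h8]
    gcongr
    nlinarith
  have hs : Data L P Q η (d / (8 * J)) (d / 8) d J k := by
    refine ⟨hL, hP, hQ, hnet, hsep, hη, by positivity, by positivity, ?_, ?_⟩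
    · have : (J : ℝ) * (d / (8 * J)) = d / 8 := by field_simp
      linarith
    · have hkk : 512 * log (8 * (Q.card : ℝ)) / d ^ 2 ≤ k := Nat.le_ceil _
      rw [div_le_iff₀ (by positivity)] at hkk
      calc 2 * (Q.card : ℝ) * exp (-(k * (d / 8) ^ 2 / 8))
          ≤ 2 * (Q.card : ℝ) * exp (-log (8 * Q.card)) := by
            gcongr
            rw [div_pow]
            linarith
        _ = 1 / 4 := by rw [exp_neg, exp_log (by positivity)]; field_simp; norm_num
  set m := log (P.card : ℝ) with hm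
  have hm0 : 0 < m := log_pos (by exact_mod_cast hP1)
  have hne : Nonempty P := Finset.nonempty_coe_sort.2 (Finset.card_pos.1 (by omega))
  set μ : P → ℝ := fun _ => 1 / (P.card : ℝ) with hμdef
  have hμ : Pos μ := by
    refine ⟨⟨fun a => by simp only [hμdef]; positivity, ?_⟩, fun a => by
      simp only [hμdef]; positivity⟩
    simp only [hμdef, Finset.sum_const, Finset.card_univ, Fintype.card_coe, nsmul_eq_mul]
    field_simp
  have hb := hs.bound J 0 P μ m hμ subset_rfl hm0 (by omega) fun x hx => by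
    refine ⟨Pi.single ⟨x, hx⟩ 1, single_mem_stdSimplex ℝ _, ?_, fun y _ => ?_⟩
    · simp [kl, hμdef, hm, Pi.single_apply, ite_mul]
    · have : bary P (Pi.single (⟨x, hx⟩ : P) (1 : ℝ)) = x := by
        simp [bary, Pi.single_apply, ite_smul]
      simp [this]
  have hP0 : (0 : ℝ) < P.card := by exact_mod_cast (show 0 < P.card by omega)
  have hlog := log_le_log hP0 hb
  rw [log_mul (by positivity) (by positivity), log_mul (by norm_num) (exp_pos _).ne', log_exp,
    log_pow, ← hm] at hlog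
  have hδ : 2 * η / (d / (8 * J)) = 16 * η * J / d := by field_simp; ring
  rw [hδ] at hlog
  have hkδ : (k : ℝ) * (16 * η * J / d) ^ J ≤ 1 / 8 := by
    refine (mul_le_mul_of_nonneg_right hk3 (by positivity)).trans ?_
    rw [div_mul_eq_mul_div, div_le_iff₀ (by positivity)]
    linarith
  have hkm := mul_le_mul_of_nonneg_left hkδ hm0.le
  have hc1 : log (4 / 3 : ℝ) ≤ 1 / 3 := by
    linarith [log_le_sub_one_of_pos (show (0 : ℝ) < 4 / 3 by norm_num)]
  have hJh := mul_le_mul_of_nonneg_right hJ1 hh0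
  nlinarith

end Vale.Agent.P126.Tilt
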