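import Vale.Agent.P126.Tilt.Bounded
import Vale.Agent.P126.Power.Scales

/-!
P126: the levels `b ^ (4 * 3 ^ i)`. The pieces between consecutive levels cost `J` symbols each,
and the nets of every second level multiply inside the polar.
-/

open Finset Real
open scoped RealInnerProductSpace Pointwise Classical

namespace Vale.Agent.P126.Tilt

variable {E : Type*} [NormedAddCommGroup E] [InnerProductSpace ℝ E]

/-- The fourth root of the level. -/
def lv (b : ℝ) (i : ℕ) : ℝ := b ^ (3 ^ i)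

/-- The points of `K` inside the level `i + 1`. -/
def band (K L : Set E) (b : ℝ) (i : ℕ) : Set E := {x | x ∈ K ∧ ((lv b (i + 1)) ^ 4)⁻¹ • x ∈ L}

theorem lv_succ (b : ℝ) (i : ℕ) : lv b (i + 1) = lv b i ^ 3 := by
  rw [lv, lv, pow_succ, pow_mul]

theorem lv_mono {b : ℝ} (hb : 1 ≤ b) {i j : ℕ} (h : i ≤ j) : lv b i ≤ lv b j :=
  pow_le_pow_right₀ hb (Nat.pow_le_pow_right (by norm_num) h)

theorem le_lv {b : ℝ} (hb : 1 ≤ b) (i : ℕ) : b ≤ lv b i :=
  le_self_pow₀ hb (pow_ne_zero _ (by norm_num))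

theorem two_pow_le_lv {b : ℝ} (hb : 64 ≤ b) (m : ℕ) : (2 : ℝ) ^ (m + 6) ≤ lv b m := by
  have h1 : (2 : ℝ) ^ (6 * 3 ^ m) ≤ lv b m := by
    rw [pow_mul, lv]; exact pow_le_pow_left₀ (by norm_num) (by norm_num; linarith) _
  refine le_trans (pow_le_pow_right₀ one_le_two ?_) h1
  have : m + 1 ≤ 3 ^ m := Nat.lt_pow_self (by norm_num)
  omega

variable [FiniteDimensional ℝ E]

omit [FiniteDimensional ℝ E] in
theorem band_bound {K L : Set E} (hL : IsBody L) {b : ℝ} (hb : 1 ≤ b) {i : ℕ} {x y : E}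
    (hx : x ∈ band K L b i) (hy : y ∈ polar L) : |⟪x, y⟫| ≤ lv b (i + 1) ^ 4 := by
  have h0 : 0 < lv b (i + 1) ^ 4 := pow_pos (by linarith [le_lv hb (i + 1)]) _
  have h := hL.abs_inner_le hx.2 hy
  rwa [real_inner_smul_left, abs_mul, abs_of_pos (inv_pos.2 h0), inv_mul_le_iff₀ h0, mul_one] at h

/-- Nets of every second level multiply. -/
theorem prod_bands_le {K L : Set E} (hK : IsBody K) (hL : IsBody L) {b : ℝ} (hb : 64 ≤ b)
    (M r : ℕ) (Q : ℕ → Finset E) (hQ : ∀ k, ↑(Q k) ⊆ polar L)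
    (hsep : ∀ k, ∀ y ∈ Q k, ∀ y' ∈ Q k, y ≠ y' → ∃ x ∈ band K L b k, lv b k ^ 2 < |⟪x, y - y'⟫|) :
    ∏ i : Fin M, (Q (2 * i + r)).card ≤ covNum (polar L) ((4 : ℝ)⁻¹ • polar K) := by
  have hb1 : 1 ≤ b := by linarith
  obtain ⟨t, ht, hcov⟩ := exists_covers_card hL.isBody_polar.2.1
    (hK.isBody_polar.smul (show ((4 : ℝ)⁻¹) ≠ 0 by norm_num))
  set θ : ℕ → ℝ := fun i => (lv b (2 * i + r) ^ 2)⁻¹ with hθ
  have hlv : ∀ i, 0 < lv b i := fun i => by linarith [le_lv hb1 i]
  have hθ0 : ∀ i, 0 < θ i := fun i => inv_pos.2 (pow_pos (hlv _) _)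
  have hθle : ∀ i, θ i ≤ (1 / 2 : ℝ) ^ i / 4 := fun i => by
    have h1 : (2 : ℝ) ^ i * 4 ≤ lv b (2 * i + r) ^ 2 := by
      calc (2 : ℝ) ^ i * 4 = 2 ^ (i + 2) := by rw [pow_add]; norm_num
        _ ≤ 2 ^ (2 * i + r + 6) := pow_le_pow_right₀ one_le_two (by omega)
        _ ≤ lv b (2 * i + r) := two_pow_le_lv hb _
        _ ≤ _ := le_self_pow₀ (hb1.trans (le_lv hb1 _)) two_ne_zero
    rw [hθ, one_div, inv_pow, div_eq_mul_inv, ← mul_inv]
    exact inv_anti₀ (by positivity) h1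
  let z : (Fin M → E) → E := fun p => ∑ i : Fin M, θ i • p i
  have hzmem : ∀ p ∈ Fintype.piFinset (fun i : Fin M => Q (2 * i + r)), z p ∈ polar L := by
    intro p hp x hx
    simp only [z, inner_sum, real_inner_smul_right]
    calc ∑ i : Fin M, θ i * ⟪x, p i⟫ ≤ ∑ i : Fin M, (1 / 2 : ℝ) ^ (i : ℕ) / 4 :=
          Finset.sum_le_sum fun i _ => le_trans (mul_le_of_le_one_right (hθ0 _).le
            (hQ _ (Fintype.mem_piFinset.1 hp i) x hx)) (hθle _)
      _ = (∑ i ∈ Finset.range M, (1 / 2 : ℝ) ^ i) / 4 := by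
          rw [← Finset.sum_div, Fin.sum_univ_eq_sum_range (fun i => (1 / 2 : ℝ) ^ i)]
      _ ≤ 1 := by linarith [sum_geometric_two_le M]
  choose! f hf1 hf2 using hcov
  rw [← Fintype.card_piFinset, ← ht]
  refine Finset.card_le_card_of_injOn (fun p => f (z p)) (fun p hp => hf1 _ (hzmem p hp)) ?_
  intro p hp p' hp' he
  simp only at he
  by_contra hne
  have hD : (univ.filter (fun i : Fin M => p i ≠ p' i)).Nonempty := by
    obtain ⟨i, hi⟩ := Function.ne_iff.1 hne
    exact ⟨i, Finset.mem_filter.2 ⟨Finset.mem_univ _, hi⟩⟩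
  set i0 := (univ.filter (fun i : Fin M => p i ≠ p' i)).min' hD
  have hi0 : p i0 ≠ p' i0 := (Finset.mem_filter.1 (Finset.min'_mem _ hD)).2
  have hbefore : ∀ i, i < i0 → p i = p' i := fun i hi => by_contra fun hne' =>
    absurd (Finset.min'_le _ i (Finset.mem_filter.2 ⟨Finset.mem_univ _, hne'⟩)) (not_le.2 hi)
  obtain ⟨x, hxA, hx⟩ := hsep (2 * i0 + r) _ (Fintype.mem_piFinset.1 hp i0) _
    (Fintype.mem_piFinset.1 hp' i0) hi0
  set e : Fin M → ℝ := fun i => θ i * ⟪x, p i - p' i⟫ with he'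
  have hfirst : 1 < |e i0| := by
    simp only [he', abs_mul, abs_of_pos (hθ0 _)]
    rw [hθ, lt_inv_mul_iff₀ (pow_pos (hlv _) _), mul_one]
    exact hx
  have htail : |∑ i ∈ univ.erase i0, e i| ≤ 1 / 4 := by
    refine (Finset.abs_sum_le_sum_abs _ _).trans ?_
    have hb' : ∀ i ∈ univ.erase i0, |e i| ≤ (1 / 2 : ℝ) ^ (i : ℕ) / 8 := by
      intro i hi
      rcases lt_or_gt_of_ne (Finset.ne_of_mem_erase hi) with hlt | hgt
      · simp only [he', hbefore i hlt, sub_self, inner_zero_right, mul_zero, abs_zero]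
        positivity
      · have hgt' : (i0 : ℕ) < i := hgt
        have hy : ∀ {s : Fin M → E}, s ∈ Fintype.piFinset (fun i : Fin M => Q (2 * i + r)) →
            |⟪x, s i⟫| ≤ lv b (2 * (i0 : ℕ) + r + 1) ^ 4 := fun hs =>
          band_bound hL hb1 hxA (hQ _ (Fintype.mem_piFinset.1 hs i))
        have hd : |⟪x, p i - p' i⟫| ≤ 2 * lv b (2 * (i0 : ℕ) + r + 1) ^ 4 := by
          rw [inner_sub_right]
          exact (abs_sub _ _).trans (by linarith [hy hp, hy hp'])
        obtain ⟨l, hl⟩ : ∃ l, 2 * (i : ℕ) + r = l + 1 := ⟨2 * (i : ℕ) + r - 1, by omega⟩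
        have hup : lv b (2 * (i0 : ℕ) + r + 1) ≤ lv b l := lv_mono hb1 (by omega)
        have hu2 : (2 : ℝ) ^ ((i : ℕ) + 4) ≤ lv b l ^ 2 :=
          calc (2 : ℝ) ^ ((i : ℕ) + 4) ≤ 2 ^ (l + 6) := pow_le_pow_right₀ one_le_two (by omega)
            _ ≤ lv b l := two_pow_le_lv hb _
            _ ≤ _ := le_self_pow₀ (hb1.trans (le_lv hb1 _)) two_ne_zero
        have hu0 : 0 < lv b l := hlv l
        simp only [he', abs_mul, abs_of_pos (hθ0 _)]
        calc θ i * |⟪x, p i - p' i⟫| ≤ θ i * (2 * lv b l ^ 4) :=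
              mul_le_mul_of_nonneg_left (hd.trans (by
                have := pow_le_pow_left₀ (hlv _).le hup 4
                linarith)) (hθ0 _).le
          _ = 2 / lv b l ^ 2 := by
              simp only [hθ, hl, lv_succ]; field_simp
          _ ≤ 2 / 2 ^ ((i : ℕ) + 4) := div_le_div_of_nonneg_left two_pos.le (by positivity) hu2
          _ = _ := by rw [pow_add, one_div_pow]; field_simp; norm_num
    refine (Finset.sum_le_sum hb').trans ?_
    refine (Finset.sum_le_univ_sum_of_nonneg fun i => by positivity).trans ?_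
    rw [← Finset.sum_div, Fin.sum_univ_eq_sum_range (fun i => (1 / 2 : ℝ) ^ i)]
    linarith [sum_geometric_two_le M]
  have hsum : ⟪x, z p - z p'⟫ = e i0 + ∑ i ∈ univ.erase i0, e i := by
    rw [Finset.add_sum_erase _ e (Finset.mem_univ i0)]
    simp only [z, he', ← Finset.sum_sub_distrib, ← smul_sub, inner_sum, real_inner_smul_right]
  obtain ⟨u, hu, hu'⟩ := Set.mem_smul_set.1 (hf2 _ (hzmem p hp))
  obtain ⟨v, hv, hv'⟩ := Set.mem_smul_set.1 (hf2 _ (hzmem p' hp'))
  have e2 : z p - z p' = (4 : ℝ)⁻¹ • u - (4 : ℝ)⁻¹ • v := by rw [hu', hv', he]; abel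
  rw [e2, ← smul_sub, real_inner_smul_right, inner_sub_right] at hsum
  have a := abs_le.1 (hK.abs_inner_le hxA.1 hu)
  have a' := abs_le.1 (hK.abs_inner_le hxA.1 hv)
  have c := abs_le.1 htail
  rcases lt_abs.1 hfirst with h | h <;> linarith

/-- Linear duality at the scale `4 * b ^ 4`, with `J` symbols for each level. -/
theorem levels_duality {K L : Set E} (hK : IsBody K) (hL : IsBody L) {b : ℝ} {J : ℕ}
    (hb : 64 ≤ b) (hJ : 16 ≤ J) (hJb : 32 * (J : ℝ) ≤ b)
    (hH : 96000 * Real.log (covNum (polar L) ((4 : ℝ)⁻¹ • polar K)) ≤ b ^ (J - 16)) :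
    Real.log (covNum K (b ^ 4 • L)) ≤
      20 * J * Real.log (covNum (polar L) ((4 : ℝ)⁻¹ • polar K)) := by
  set H := Real.log (covNum (polar L) ((4 : ℝ)⁻¹ • polar K)) with hHdef
  have hb1 : 1 ≤ b := by linarith
  have hlv : ∀ i, 0 < lv b i := fun i => by linarith [le_lv hb1 i]
  have hF := hL.isBody_polar
  set ρ : ℕ → ℝ := fun i => lv b i ^ 4 with hρdef
  have hρ : ∀ i, 0 < ρ i := fun i => pow_pos (hlv i) _
  have hP : ∀ k, ∃ P : Finset E, ↑P ⊆ band K L b k ∧
      (∀ u ∈ P, ∀ v ∈ P, u ≠ v → (2 / ρ k) • (u - v) ∉ L) ∧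
      ∀ z ∈ band K L b k, ∃ p ∈ P, ¬ ((2 / ρ k) • (z - p) ∉ L) := fun k => by
    have hc : ρ k / 4 ≠ 0 := by linarith [hρ k]
    obtain ⟨tP, htP⟩ := exists_covers hK.2.1 (hL.smul hc)
    refine exists_maximal (fun u v => (2 / ρ k) • (u - v) ∉ L)
      (fun u v h h' => h (by simpa [smul_sub] using hL.2.2.2 _ h'))
      (fun u h => h (by simpa using hL.zero_mem)) tP.card
      (fun P h1 h2 => card_le_covers htP (fun u v c hu hv _ _ h => h (by
        obtain ⟨a, ha, ha'⟩ := Set.mem_smul_set.1 hu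
        obtain ⟨a', hb', hb''⟩ := Set.mem_smul_set.1 hv
        have := hL.1 ha (hL.2.2.2 a' hb') (show (0 : ℝ) ≤ 1 / 2 by norm_num)
          (show (0 : ℝ) ≤ 1 / 2 by norm_num) (by norm_num)
        rw [show u - v = (ρ k / 4) • a - (ρ k / 4) • a' by rw [ha', hb'']; abel]
        have e : (2 / ρ k) • ((ρ k / 4) • a - (ρ k / 4) • a') =
            (1 / 2 : ℝ) • a + (1 / 2 : ℝ) • -a' := by
          have := (hρ k).ne'
          match_scalars <;> field_simp <;> norm_num
        rwa [e]))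
        (fun u hu => (h1 hu).1) h2)
  choose P hPA hPsep hPmax using hP
  obtain ⟨R', hR'⟩ := isBounded_iff_forall_norm_le.1 hK.2.1.isBounded
  set ε : ℝ := 1 / (4 * (|R'| + 1)) with hε
  have hε0 : 0 < ε := by positivity
  obtain ⟨tQ, -, htQfin, htQ⟩ := hF.2.1.finite_cover_balls hε0
  have hQ : ∀ k, ∃ Q : Finset E, ↑Q ⊆ polar L ∧
      (∀ u ∈ Q, ∀ v ∈ Q, u ≠ v → ∃ x ∈ band K L b k, lv b k ^ 2 < |⟪x, u - v⟫|) ∧
      ∀ z ∈ polar L, ∃ p ∈ Q, ¬ ∃ x ∈ band K L b k, lv b k ^ 2 < |⟪x, z - p⟫| := fun k =>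
    exists_maximal (fun u v => ∃ x ∈ band K L b k, lv b k ^ 2 < |⟪x, u - v⟫|)
      (fun u v ⟨x, hx, h⟩ => ⟨x, hx, by rwa [← neg_sub, inner_neg_right, abs_neg]⟩)
      (fun u ⟨x, _, h⟩ => by
        rw [sub_self, inner_zero_right, abs_zero] at h
        exact absurd h (not_lt.2 (sq_nonneg _)))
      htQfin.toFinset.card
      (fun Q h1 h2 => card_le_covers (A := polar L) (B := Metric.ball 0 ε)
        (t := htQfin.toFinset) (fun z hz => by
          obtain ⟨c, hc, hzc⟩ := Set.mem_iUnion₂.1 (htQ hz)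
          exact ⟨c, htQfin.mem_toFinset.2 hc, by
            rwa [Metric.mem_ball, dist_zero_right, ← dist_eq_norm]⟩)
        (fun u v c hu hv _ _ ⟨x, hx, h⟩ => by
          rw [Metric.mem_ball, dist_zero_right] at hu hv
          have h1 : ‖u - v‖ ≤ 2 * ε := by
            rw [show u - v = (u - c) - (v - c) by abel]
            linarith [norm_sub_le (u - c) (v - c)]
          have h2 := (abs_real_inner_le_norm x (u - v)).trans
            (mul_le_mul ((hR' x hx.1).trans (le_abs_self R')) h1 (norm_nonneg _) (abs_nonneg _))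
          have h3 : |R'| * (2 * ε) ≤ 1 / 2 := by
            rw [hε, mul_div_assoc', mul_div_assoc', div_le_div_iff₀ (by positivity) two_pos]
            linarith [abs_nonneg R']
          have h4 : 1 ≤ lv b k ^ 2 := one_le_pow₀ (hb1.trans (le_lv hb1 k))
          linarith) h1 h2)
  choose Q hQF hQsep hQmax using hQ
  have hQ0 : ∀ k, 0 < (Q k).card := fun k => by
    obtain ⟨p, hp, -⟩ := hQmax k 0 hF.zero_mem
    exact Finset.card_pos.2 ⟨p, hp⟩
  have hP0 : ∀ k, 0 < (P k).card := fun k => by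
    obtain ⟨p, hp, -⟩ := hPmax k 0 ⟨hK.zero_mem, by rw [smul_zero]; exact hL.zero_mem⟩
    exact Finset.card_pos.2 ⟨p, hp⟩
  obtain ⟨r₀, hr₀, hball⟩ := hL.exists_ball
  obtain ⟨M, hM⟩ := pow_unbounded_of_one_lt (R' / r₀) (one_lt_two (α := ℝ))
  have hres : ∀ r < 2, ∑ i ∈ range (M + 1), Real.log (Q (2 * i + r)).card ≤ H := by
    intro r _
    rw [← Fin.sum_univ_eq_sum_range (fun i => Real.log (Q (2 * i + r)).card),
      ← Real.log_prod (fun i _ => by exact_mod_cast (hQ0 _).ne'), hHdef]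
    refine Real.log_le_log (Finset.prod_pos fun i _ => by exact_mod_cast hQ0 _) ?_
    exact_mod_cast prod_bands_le hK hL hb (M + 1) r Q hQF hQsep
  -- one level
  have hstep : ∀ k < M, Real.log (P k).card ≤ 10 * J * Real.log (Q k).card := by
    intro k hk
    set q := lv b k with hq
    have hq0 : 0 < q := hlv k
    have hqb : b ≤ q := le_lv hb1 k
    have hh : Real.log (Q k).card ≤ H := by
      refine le_trans ?_ (hres (k % 2) (Nat.mod_lt _ two_pos))
      have := Finset.single_le_sum (f := fun i => Real.log (Q (2 * i + k % 2)).card)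
        (fun i _ => Real.log_natCast_nonneg _) (Finset.mem_range.2 (show k / 2 < M + 1 by omega))
      rwa [show 2 * (k / 2) + k % 2 = k by omega] at this
    set sc : ℝ := (q ^ 12)⁻¹ with hsc
    have hsc0 : 0 < sc := by positivity
    have hρ1 : ((lv b (k + 1)) ^ 4)⁻¹ = sc := by rw [lv_succ, hsc, ← hq, ← pow_mul]
    set P' := (P k).image (sc • ·) with hP'
    have hcard : P'.card = (P k).card :=
      Finset.card_image_of_injective _ (smul_right_injective E hsc0.ne')
    have h := bounded_tilt (P := P') (Q := Q k) (η := 1 / q ^ 10) (d := 1 / (2 * q ^ 8)) (J := J)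
      hL ?_ (hQF k) ?_ ?_ (by positivity) (by positivity) ?_ ?_ (by omega) ?_
    · rwa [hcard] at h
    · intro x hx
      obtain ⟨x', hx', rfl⟩ := Finset.mem_image.1 hx
      have := (hPA k hx').2
      rwa [hρ1] at this
    · intro y hy
      obtain ⟨p, hp, hn⟩ := hQmax k y hy
      push Not at hn
      refine ⟨p, hp, fun x hx => ?_⟩
      obtain ⟨x', hx', rfl⟩ := Finset.mem_image.1 hx
      rw [real_inner_smul_left, abs_mul, abs_of_pos hsc0]
      refine (mul_le_mul_of_nonneg_left (hn x' (hPA k hx')) hsc0.le).trans (le_of_eq ?_)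
      rw [hsc, ← hq]; field_simp
    · intro x hx x' hx' hne
      obtain ⟨u, hu, rfl⟩ := Finset.mem_image.1 hx
      obtain ⟨u', hu', rfl⟩ := Finset.mem_image.1 hx'
      obtain ⟨y, hy, h1⟩ := hL.exists_sep (hPsep k u hu u' hu' fun h => hne (by rw [h]))
      refine ⟨y, hy, ?_⟩
      rw [real_inner_smul_left, hρdef] at h1
      simp only [← hq] at h1
      rw [← smul_sub, real_inner_smul_left, hsc]
      rw [div_mul_eq_mul_div, one_lt_div (by positivity)] at h1
      rw [inv_mul_eq_div, div_lt_div_iff₀ (by positivity) (by positivity)]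
      nlinarith [mul_lt_mul_of_pos_left h1 (pow_pos hq0 8)]
    · rw [div_le_one (by positivity)]
      linarith [one_le_pow₀ (show 1 ≤ q by linarith) (n := 8)]
    · rw [mul_one_div, div_le_div_iff₀ (by positivity) (by positivity)]
      nlinarith [mul_le_mul hqb (hb.trans hqb) (by norm_num) hq0.le, pow_pos hq0 8]
    · have e : 16 * (1 / q ^ 10) * J / (1 / (2 * q ^ 8)) = 32 * J / q ^ 2 := by field_simp; ring
      have h1 : 32 * (J : ℝ) / q ^ 2 ≤ q⁻¹ := by
        rw [inv_eq_one_div, div_le_div_iff₀ (by positivity) hq0]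
        nlinarith
      rw [e]
      calc 24000 * Real.log (Q k).card * (32 * (J : ℝ) / q ^ 2) ^ J
          ≤ 24000 * H * (q⁻¹) ^ J :=
            mul_le_mul (by linarith) (pow_le_pow_left₀ (by positivity) h1 _) (by positivity)
              (by linarith [Real.log_natCast_nonneg (Q k).card])
        _ ≤ b ^ (J - 16) / 4 * (q⁻¹) ^ J :=
            mul_le_mul_of_nonneg_right (by linarith) (by positivity)
        _ ≤ q ^ (J - 16) / 4 * (q⁻¹) ^ J := by gcongr
        _ = (1 / (2 * q ^ 8)) ^ 2 := by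
            rw [show (q⁻¹) ^ J = (q⁻¹) ^ (J - 16) * (q⁻¹) ^ 16 by
              rw [← pow_add, Nat.sub_add_cancel hJ], inv_pow, inv_pow]
            field_simp
            norm_num
  -- the descent
  have hdesc : ∀ j, j ≤ M → ∃ t : Finset E,
      t.card ≤ ∏ k ∈ Finset.Ico (M - j) M, (P k).card ∧
      ∀ z ∈ K, ∃ c ∈ t, (ρ (M - j))⁻¹ • (z - c) ∈ L := by
    intro j
    induction j with
    | zero =>
      intro _
      refine ⟨{0}, by simp, fun z hz => ⟨0, Finset.mem_singleton_self _, hball ?_⟩⟩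
      rw [Metric.mem_closedBall, dist_zero_right, sub_zero, norm_smul, norm_inv,
        Real.norm_of_nonneg (hρ _).le, inv_mul_le_iff₀ (hρ _)]
      rw [div_lt_iff₀ hr₀] at hM
      have h2 : (2 : ℝ) ^ M ≤ ρ (M - 0) :=
        (pow_le_pow_right₀ one_le_two (show M ≤ M - 0 + 6 by omega)).trans
          ((two_pow_le_lv hb _).trans (le_self_pow₀ (hb1.trans (le_lv hb1 _)) (by norm_num)))
      linarith [hR' z hz, mul_le_mul_of_nonneg_right h2 hr₀.le]
    | succ j ih =>
      intro hj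
      obtain ⟨t, ht, hcov⟩ := ih (by omega)
      obtain ⟨k, hk⟩ : ∃ k, M - j = k + 1 := ⟨M - j - 1, by omega⟩
      have hk' : M - (j + 1) = k := by omega
      let base : E → E := fun c =>
        if h : ∃ z ∈ K, (ρ (k + 1))⁻¹ • (z - c) ∈ L then h.choose else 0
      refine ⟨(t ×ˢ P k).image (fun cp => base cp.1 + (2 : ℝ) • cp.2), ?_, ?_⟩
      · refine Finset.card_image_le.trans ?_
        rw [Finset.card_product, hk', Finset.prod_eq_prod_Ico_succ_bot (show k < M by omega),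
          ← hk, mul_comm ((P k).card)]
        exact Nat.mul_le_mul_right _ ht
      · intro z hz
        obtain ⟨c, hc, hzc⟩ := hcov z hz
        rw [hk] at hzc
        have hex : ∃ z ∈ K, (ρ (k + 1))⁻¹ • (z - c) ∈ L := ⟨z, hz, hzc⟩
        have hbc : base c = hex.choose := dif_pos hex
        obtain ⟨hbK, hbL⟩ := hex.choose_spec
        rw [← hbc] at hbK hbL
        set x := (1 / 2 : ℝ) • z + (1 / 2 : ℝ) • -base c with hx
        have hxK : x ∈ K :=
          hK.1 hz (hK.2.2.2 _ hbK) (by norm_num) (by norm_num) (by norm_num)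
        have hxL : (ρ (k + 1))⁻¹ • x ∈ L := by
          have h := hL.1 hzc (hL.2.2.2 _ hbL) (show (0 : ℝ) ≤ 1 / 2 by norm_num)
            (show (0 : ℝ) ≤ 1 / 2 by norm_num) (by norm_num)
          have e : (ρ (k + 1))⁻¹ • x = (1 / 2 : ℝ) • ((ρ (k + 1))⁻¹ • (z - c)) +
              (1 / 2 : ℝ) • -((ρ (k + 1))⁻¹ • (base c - c)) := by
            rw [hx]; module
          rwa [e]
        obtain ⟨p, hp, hn⟩ := hPmax k x ⟨hxK, hxL⟩
        refine ⟨base c + (2 : ℝ) • p,
          Finset.mem_image.2 ⟨(c, p), Finset.mem_product.2 ⟨hc, hp⟩, rfl⟩, ?_⟩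
        rw [hk']
        have e : (ρ k)⁻¹ • (z - (base c + (2 : ℝ) • p)) = (2 / ρ k) • (x - p) := by
          rw [hx, div_eq_mul_inv]; module
        rw [e]
        exact not_not.1 hn
  obtain ⟨t, ht, hcov⟩ := hdesc M le_rfl
  rw [Nat.sub_self] at ht hcov
  have hρ0 : ρ 0 = b ^ 4 := by simp [hρdef, lv]
  have hN : covNum K (b ^ 4 • L) ≤ ∏ k ∈ range M, (P k).card := by
    rw [Finset.range_eq_Ico]
    refine (covNum_le (t := t) fun z hz => ?_).trans ht
    obtain ⟨c, hc, h⟩ := hcov z hz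
    exact ⟨c, hc, by rwa [Set.mem_smul_set_iff_inv_smul_mem₀ (by positivity), ← hρ0]⟩
  have h1 : Real.log (covNum K (b ^ 4 • L)) ≤ ∑ k ∈ range M, Real.log (P k).card := by
    rw [← Real.log_prod (fun k _ => by exact_mod_cast (hP0 k).ne')]
    refine Real.log_le_log (Nat.cast_pos.2
      (one_le_covNum hK.2.1 ⟨0, hK.zero_mem⟩ (hL.smul (by positivity)))) ?_
    exact_mod_cast hN
  refine h1.trans ((Finset.sum_le_sum fun k hk => hstep k (Finset.mem_range.1 hk)).trans ?_)
  rw [← Finset.mul_sum]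
  have hle : ∑ k ∈ range M, Real.log (Q k).card ≤ H + H := by
    refine le_trans (Finset.sum_le_sum_of_subset_of_nonneg
      (Finset.range_mono (show M ≤ 2 * (M + 1) by omega))
      fun k _ _ => Real.log_natCast_nonneg _) ?_
    rw [Power.sum_range_mul 2, Finset.sum_range_succ, Finset.sum_range_one]
    exact add_le_add (hres 0 (by omega)) (hres 1 (by omega))
  have := mul_le_mul_of_nonneg_left hle (show (0 : ℝ) ≤ 10 * J by positivity)
  linarith

end Vale.Agent.P126.Tilt
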