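import Vale.Agent.P126.Tilt.Levels

/-!
P126: linear duality at scales polylogarithmic in the covering numbers.
-/

open Real
open scoped RealInnerProductSpace Pointwise

namespace Vale.Agent.P126.Tilt

variable {E : Type*} [NormedAddCommGroup E] [InnerProductSpace ℝ E] [FiniteDimensional ℝ E]

/-- For `a ≥ C log (2 + H) ^ 4`: `log N(K, L) ≤ C (1 + log (2 + H) / log a) H`. -/
theorem tilt_duality {K L : Set E} (hK : IsBody K) (hL : IsBody L) {a : ℝ}
    (ha : 10 ^ 15 * log (2 + log (covNum (polar L) (a⁻¹ • polar K))) ^ 4 ≤ a) :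
    log (covNum K L) ≤ 380 * (1 + log (2 + log (covNum (polar L) (a⁻¹ • polar K))) / log a) *
      log (covNum (polar L) (a⁻¹ • polar K)) := by
  set H := log (covNum (polar L) (a⁻¹ • polar K)) with hH
  have hH0 : 0 ≤ H := log_natCast_nonneg _
  set L2 := log (2 + H) with hL2
  have h69 : (0.69 : ℝ) ≤ L2 :=
    le_trans (by linarith [log_two_gt_d9]) (log_le_log two_pos (show 2 ≤ 2 + H by linarith))
  have h694 : (0.22 : ℝ) ≤ L2 ^ 4 :=
    le_trans (by norm_num) (pow_le_pow_left₀ (by norm_num) h69 4)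
  have ha1 : (100000000000000 : ℝ) ≤ a := by linarith
  set b : ℝ := (a / 4) ^ ((1 : ℝ) / 4) with hb
  have hb4 : b ^ 4 = a / 4 := by
    rw [hb, ← rpow_natCast, ← rpow_mul (by linarith), show (1 : ℝ) / 4 * ((4 : ℕ) : ℝ) = 1 by
      norm_num, rpow_one]
  have hb0 : 0 < b := rpow_pos_of_pos (by linarith) _
  have hb2000 : 2000 ≤ b := by
    refine le_of_pow_le_pow_left₀ (by norm_num : (4 : ℕ) ≠ 0) hb0.le ?_
    rw [hb4]; norm_num; linarith
  have hbL : 1138 * L2 ≤ b := by
    refine le_of_pow_le_pow_left₀ (by norm_num : (4 : ℕ) ≠ 0) hb0.le ?_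
    rw [hb4, mul_pow]; norm_num; linarith
  have hlb : 0 < log b := log_pos (by linarith)
  set T := log (96000 * (2 + H)) / log b with hT
  have hT0 : 0 ≤ T := div_nonneg (log_nonneg (by linarith)) hlb.le
  set J : ℕ := ⌈16 + T⌉₊ with hJ
  have hJ16 : 16 ≤ J := by
    have : (16 : ℝ) ≤ J := le_trans (by linarith) (Nat.le_ceil _)
    exact_mod_cast this
  have hJ1 : (J : ℝ) ≤ 16 + T + 1 := (Nat.ceil_lt_add_one (by linarith)).le
  have hla : log a ≤ 8 * log b := by
    rw [show (8 : ℝ) * log b = log (b ^ 8) by rw [log_pow]; norm_num]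
    refine log_le_log (by linarith) ?_
    rw [show b ^ 8 = (b ^ 4) ^ 2 by ring, hb4, sq]
    have := mul_le_mul (show (4 : ℝ) ≤ a / 4 by linarith) (le_refl (a / 4)) (by linarith)
      (by linarith)
    linarith
  have hla1 : 1 ≤ log a := by
    rw [le_log_iff_exp_le (by linarith)]
    linarith [exp_one_lt_d9]
  set l := L2 / log a with hl
  have hl0 : 0 ≤ l := div_nonneg (by linarith) (by linarith)
  have hlL : l ≤ L2 := div_le_self (by linarith) hla1
  have hTl : T ≤ 2 + 8 * l := by
    rw [hT, log_mul (by norm_num) (by linarith), ← hL2, add_div]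
    refine add_le_add ?_ ?_
    · rw [div_le_iff₀ hlb, show (2 : ℝ) * log b = log (b ^ 2) by rw [log_pow]; norm_num]
      exact log_le_log (by norm_num) (le_trans (by norm_num) (pow_le_pow_left₀ (by norm_num)
        hb2000 2))
    · rw [hl, div_le_iff₀ hlb, mul_right_comm]
      calc L2 = L2 / log a * log a := (div_mul_cancel₀ _ (by linarith)).symm
        _ ≤ L2 / log a * (8 * log b) := mul_le_mul_of_nonneg_left hla hl0
        _ = _ := by ring
  have hJl : (J : ℝ) ≤ 19 + 8 * l := by linarith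
  have hbL' : IsBody ((b ^ 4)⁻¹ • L) := hL.smul (by positivity)
  have key : covNum (polar ((b ^ 4)⁻¹ • L)) ((4 : ℝ)⁻¹ • polar K) =
      covNum (polar L) (a⁻¹ • polar K) := by
    have h4 : (4 : ℝ)⁻¹ = b ^ 4 * a⁻¹ := by rw [hb4]; field_simp
    rw [polar_smul (by positivity), inv_inv, h4, mul_smul,
      covNum_smul hL.isBody_polar.2.1 (hK.isBody_polar.smul (inv_ne_zero (by linarith)))
        (by positivity)]
  have h := levels_duality hK hbL' (b := b) (J := J) (by linarith) hJ16 (by linarith) (by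
    rw [key, ← hH]
    have hpow : 96000 * (2 + H) ≤ b ^ (J - 16) := by
      rw [← log_le_log_iff (by positivity) (by positivity), log_pow, Nat.cast_sub hJ16,
        ← div_le_iff₀ hlb, ← hT]
      have := Nat.le_ceil (16 + T)
      rw [← hJ] at this
      push_cast
      linarith
    linarith)
  rw [key, ← hH, smul_inv_smul₀ (by positivity)] at h
  refine h.trans (mul_le_mul_of_nonneg_right ?_ hH0)
  linarith

end Vale.Agent.P126.Tilt
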