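import Vale.Agent.P126.Power.Search

/-!
P126: the tilt step. A witness probability vector with relative entropy `B` is replaced, after a
move by `g`, by an exponential tilt whose exponent lies in `(B/g) • L°`; naming the exponent up to
the precision `η` of a net leaves the relative entropy `2 η B / g`.
-/

open Finset Real Filter Topology
open scoped RealInnerProductSpace Pointwise Classical

namespace Vale.Agent.P126.Tilt

open Vale.Agent.P126.Power

variable {E : Type*} [NormedAddCommGroup E] [InnerProductSpace ℝ E]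

/-- Relative entropy of `ν` with respect to a positive `μ`. -/
noncomputable def kl {P : Finset E} (ν μ : P → ℝ) : ℝ := ∑ a, ν a * (log (ν a) - log (μ a))

/-- The normalisation of the tilt of `μ` by `c`. -/
noncomputable def part {P : Finset E} (μ : P → ℝ) (c : E) : ℝ := ∑ a, μ a * exp ⟪(a : E), c⟫

/-- The exponential tilt of `μ` by `c`. -/
noncomputable def tilt {P : Finset E} (μ : P → ℝ) (c : E) : P → ℝ :=
  fun a => μ a * exp ⟪(a : E), c⟫ / part μ c

/-- A positive probability vector. -/
def Pos {P : Finset E} (μ : P → ℝ) : Prop := μ ∈ stdSimplex ℝ P ∧ ∀ a, 0 < μ a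

variable {P : Finset E} {μ ν : P → ℝ}

omit [NormedAddCommGroup E] [InnerProductSpace ℝ E] in
theorem nonempty_of_simplex (hμ : μ ∈ stdSimplex ℝ P) : Nonempty P := by
  rcases isEmpty_or_nonempty P with h | h
  · have := hμ.2
    simp at this
  · exact h

theorem part_pos (hμ : Pos μ) (c : E) : 0 < part μ c := by
  have := nonempty_of_simplex hμ.1
  exact Finset.sum_pos (fun a _ => mul_pos (hμ.2 a) (exp_pos _)) Finset.univ_nonempty

theorem pos_tilt (hμ : Pos μ) (c : E) : Pos (tilt μ c) := by
  have hz := part_pos hμ c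
  refine ⟨⟨fun a => div_nonneg (mul_nonneg (hμ.1.1 a) (exp_pos _).le) hz.le, ?_⟩,
    fun a => div_pos (mul_pos (hμ.2 a) (exp_pos _)) hz⟩
  simp only [tilt, ← Finset.sum_div]
  exact div_self hz.ne'

omit [NormedAddCommGroup E] [InnerProductSpace ℝ E] in
theorem kl_nonneg (hν : ν ∈ stdSimplex ℝ P) (hμ : Pos μ) : 0 ≤ kl ν μ := by
  have hpt : ∀ a, ν a - μ a ≤ ν a * (log (ν a) - log (μ a)) := fun a => by
    rcases (hν.1 a).eq_or_lt with h | h
    · rw [← h]; simp [(hμ.2 a).le]
    · have h1 := log_le_sub_one_of_pos (div_pos (hμ.2 a) h)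
      rw [log_div (hμ.2 a).ne' h.ne'] at h1
      have h2 := mul_le_mul_of_nonneg_left h1 h.le
      rw [mul_sub, mul_sub, mul_div_cancel₀ _ h.ne', mul_one] at h2
      rw [mul_sub]
      linarith
  have := Finset.sum_le_sum (s := univ) fun a _ => hpt a
  rw [Finset.sum_sub_distrib, hν.2, hμ.1.2, sub_self] at this
  exact this

theorem kl_tilt (hν : ν ∈ stdSimplex ℝ P) (hμ : Pos μ) (c : E) :
    kl ν (tilt μ c) = kl ν μ - ⟪bary P ν, c⟫ + log (part μ c) := by
  have hz := part_pos hμ c
  have e : ∀ a, ν a * (log (ν a) - log (tilt μ c a)) =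
      ν a * (log (ν a) - log (μ a)) - ν a * ⟪(a : E), c⟫ + ν a * log (part μ c) := fun a => by
    rw [tilt, log_div (mul_pos (hμ.2 a) (exp_pos _)).ne' hz.ne', log_mul (hμ.2 a).ne'
      (exp_pos _).ne', log_exp]
    ring
  simp only [kl, Finset.sum_congr rfl fun a _ => e a, Finset.sum_add_distrib,
    Finset.sum_sub_distrib, ← Finset.sum_mul, hν.2, one_mul, inner_bary]

theorem inner_sub_log_le (hν : ν ∈ stdSimplex ℝ P) (hμ : Pos μ) (c : E) :
    ⟪bary P ν, c⟫ - log (part μ c) ≤ kl ν μ := by
  have := kl_nonneg hν (pos_tilt hμ c)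
  rw [kl_tilt hν hμ c] at this
  linarith

omit [NormedAddCommGroup E] [InnerProductSpace ℝ E] in
theorem kl_self (μ : P → ℝ) : kl μ μ = 0 := by simp [kl]

theorem kl_tilt_self (hμ : Pos μ) (c : E) :
    kl (tilt μ c) μ = ⟪bary P (tilt μ c), c⟫ - log (part μ c) := by
  have h := kl_tilt (pos_tilt hμ c).1 hμ c
  rw [kl_self] at h
  linarith

/-- Convexity of the logarithm of the normalisation. -/
theorem log_part_le (hμ : Pos μ) (c c' : E) :
    log (part μ c') ≤ log (part μ c) + ⟪bary P (tilt μ c'), c' - c⟫ := by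
  have h1 := inner_sub_log_le (pos_tilt hμ c').1 hμ c
  rw [kl_tilt_self hμ c'] at h1
  rw [inner_sub_right]
  linarith

theorem continuous_part (μ : P → ℝ) : Continuous (part μ) :=
  continuous_finsetSum _ fun _ _ =>
    continuous_const.mul (continuous_exp.comp (continuous_const.inner continuous_id))

theorem continuous_bary_tilt (hμ : Pos μ) : Continuous fun c => bary P (tilt μ c) :=
  (continuous_bary P).comp (continuous_pi fun _ =>
    (continuous_const.mul (continuous_exp.comp (continuous_const.inner continuous_id))).div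
      (continuous_part μ) fun c => (part_pos hμ c).ne')

/-- The tilt step. -/
theorem tilt_step [FiniteDimensional ℝ E] {L : Set E} (hL : IsBody L) {Q : Finset E} {η g B e : ℝ}
    (hnet : ∀ y ∈ polar L, ∃ p ∈ Q, ∀ a ∈ P, |⟪a, y - p⟫| ≤ η)
    (hg : 0 < g) (hB : 0 < B) (hμ : Pos μ) (hν : ν ∈ stdSimplex ℝ P) (hkl : kl ν μ ≤ B) {x : E}
    (hx : ∀ y ∈ polar L, |⟪x - bary P ν, y⟫| ≤ e) :
    ∃ p ∈ Q, ∃ ν' ∈ stdSimplex ℝ P, kl ν' (tilt μ ((B / g) • p)) ≤ 2 * η / g * B ∧
      ∀ y ∈ polar L, |⟪x - bary P ν', y⟫| ≤ e + g := by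
  set G : ℝ := B / g with hG
  have hG0 : 0 < G := div_pos hB hg
  set F : E → ℝ := fun y => ⟪x, G • y⟫ - log (part μ (G • y)) with hF
  have hFc : Continuous F :=
    (continuous_const.inner (continuous_id.const_smul G)).sub
      (((continuous_part μ).comp (continuous_id.const_smul G)).log fun y => (part_pos hμ _).ne')
  obtain ⟨y₀, hy₀, hmax⟩ := hL.isBody_polar.2.1.exists_isMaxOn ⟨0, zero_mem_polar L⟩
    hFc.continuousOn
  simp only [isMaxOn_iff, hF] at hmax
  set c : E := G • y₀ with hc
  set m : E := bary P (tilt μ c) with hm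
  -- first order condition
  have hfirst : ∀ y ∈ polar L, ⟪x - m, G • y - c⟫ ≤ 0 := by
    intro y hy
    set d := G • y - c with hd
    have ht : ∀ t ∈ Set.Ioc (0 : ℝ) 1, ⟪x - bary P (tilt μ (c + t • d)), d⟫ ≤ 0 := by
      intro t ht
      have hmem : (1 - t) • y₀ + t • y ∈ polar L :=
        hL.isBody_polar.1 hy₀ hy (by linarith [ht.2]) ht.1.le (by ring)
      have he : G • ((1 - t) • y₀ + t • y) = c + t • d := by
        rw [hd, hc]; module
      have h1 := hmax _ hmem
      rw [he] at h1
      have h2 := log_part_le hμ c (c + t • d)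
      rw [add_sub_cancel_left, real_inner_smul_right] at h2
      rw [inner_add_right, real_inner_smul_right] at h1
      rw [inner_sub_left]
      refine nonpos_of_mul_nonpos_right ?_ ht.1
      simp only [real_inner_smul_right] at h1 ⊢
      linarith
    have hlim : Tendsto (fun t : ℝ => ⟪x - bary P (tilt μ (c + t • d)), d⟫) (𝓝[>] 0)
        (𝓝 ⟪x - m, d⟫) := by
      have hc' : Continuous fun t : ℝ => ⟪x - bary P (tilt μ (c + t • d)), d⟫ :=
        (continuous_const.sub ((continuous_bary_tilt hμ).comp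
          (continuous_const.add (continuous_id.smul continuous_const)))).inner continuous_const
      have h := hc'.tendsto 0
      simp only [zero_smul, add_zero, ← hm] at h
      exact h.mono_left nhdsWithin_le_nhds
    refine le_of_tendsto hlim ?_
    filter_upwards [Ioc_mem_nhdsGT zero_lt_one] with t h using ht t h
  have hxc : ⟪x - m, c⟫ ≤ G * e + B := by
    have h1 : ⟪x - bary P ν, c⟫ ≤ G * e := by
      rw [hc, real_inner_smul_right]
      exact mul_le_mul_of_nonneg_left ((le_abs_self _).trans (hx y₀ hy₀)) hG0.le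
    have h2 := inner_sub_log_le hν hμ c
    have h3 := kl_nonneg (pos_tilt hμ c).1 hμ
    rw [kl_tilt_self hμ c] at h3
    rw [inner_sub_left] at h1 ⊢
    linarith
  have hclose : ∀ y ∈ polar L, ⟪x - m, y⟫ ≤ e + g := by
    intro y hy
    have h := hfirst y hy
    rw [inner_sub_right, real_inner_smul_right] at h
    refine le_of_mul_le_mul_left ?_ hG0
    have : G * g = B := by rw [hG, div_mul_cancel₀ _ hg.ne']
    linarith
  obtain ⟨p, hp, hnetp⟩ := hnet y₀ hy₀
  refine ⟨p, hp, tilt μ c, (pos_tilt hμ c).1, ?_, fun y hy => ?_⟩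
  · rw [kl_tilt (pos_tilt hμ c).1 hμ (G • p), kl_tilt_self hμ c]
    have hb : ∀ {τ : P → ℝ}, τ ∈ stdSimplex ℝ P → |⟪bary P τ, c - G • p⟫| ≤ G * η := fun hτ => by
      rw [hc, ← smul_sub, real_inner_smul_right, abs_mul, abs_of_pos hG0]
      exact mul_le_mul_of_nonneg_left (abs_inner_bary_le hτ hnetp) hG0.le
    have h1 := log_part_le hμ c (G • p)
    have h2 := (abs_le.1 (hb (pos_tilt hμ c).1)).2
    have h3 := (abs_le.1 (hb (pos_tilt hμ (G • p)).1)).1
    have h4 : 2 * η / g * B = 2 * (G * η) := by rw [hG]; field_simp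
    rw [inner_sub_right] at h1 h2 h3
    linarith
  · refine abs_le.2 ⟨?_, hclose y hy⟩
    have := hclose (-y) (hL.isBody_polar.2.2.2 y hy)
    rw [inner_neg_right] at this
    linarith

end Vale.Agent.P126.Tilt
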